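import Mathlib

/-!
Basic objects for the claw-free case of the cycle-complete Ramsey problem: cycles and induced
cycles given by periodic sequences, insertion of a vertex into a cycle, turning walks, and the
structure of neighbourhoods in a claw-free graph without a cycle of a prescribed length.
-/

namespace Vale.Agent.P048

variable {V : Type*}

/-- `f` lists a cycle of length `k` of `G`, periodically. -/
structure IsCyc (G : SimpleGraph V) (k : ℕ) (f : ℕ → V) : Prop where
  periodic : ∀ i, f (i + k) = f i
  inj : ∀ i < k, ∀ j < k, f i = f j → i = j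
  adj : ∀ i, G.Adj (f i) (f (i + 1))

/-- `c` lists an induced cycle of length `k ≥ 4` of `G`, periodically. -/
structure IsIndCyc (G : SimpleGraph V) (k : ℕ) (c : ℕ → V) : Prop where
  four_le : 4 ≤ k
  periodic : ∀ i, c (i + k) = c i
  adj : ∀ i, G.Adj (c i) (c (i + 1))
  far : ∀ i d, 2 ≤ d → d + 2 ≤ k → ¬ G.Adj (c i) (c (i + d)) ∧ c i ≠ c (i + d)

lemma periodic_mul {k : ℕ} {f : ℕ → V} (h : ∀ i, f (i + k) = f i) (i q : ℕ) :
    f (i + k * q) = f i := by
  induction q with
  | zero => simp
  | succ q ih => rw [Nat.mul_succ, ← Nat.add_assoc, h, ih]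

lemma periodic_mod {k : ℕ} {f : ℕ → V} (h : ∀ i, f (i + k) = f i) (i : ℕ) :
    f (i % k) = f i := by
  conv_rhs => rw [← Nat.mod_add_div i k]
  rw [periodic_mul h]

lemma IsIndCyc.isCyc {G : SimpleGraph V} {k : ℕ} {c : ℕ → V} (h : IsIndCyc G k c) :
    IsCyc G k c := by
  refine ⟨h.periodic, ?_, h.adj⟩
  intro i hi j hj hij
  wlog hle : i ≤ j generalizing i j with H
  · exact (H j hj i hi hij.symm (by omega)).symm
  by_contra hne
  obtain ⟨d, rfl⟩ := Nat.exists_eq_add_of_le hle
  rcases (by omega : d = 1 ∨ (2 ≤ d ∧ d + 2 ≤ k) ∨ d = k - 1) with rfl | hd | rfl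
  · exact (h.adj i).ne hij
  · exact (h.far i d hd.1 hd.2).2 hij
  · have := h.adj (i + (k - 1))
    rw [show i + (k - 1) + 1 = i + k by omega, h.periodic] at this
    exact this.ne hij.symm

lemma IsIndCyc.shift {G : SimpleGraph V} {k : ℕ} {c : ℕ → V} (h : IsIndCyc G k c) (s : ℕ) :
    IsIndCyc G k (fun i => c (s + i)) :=
  ⟨h.four_le, fun i => by simp only [← Nat.add_assoc]; exact h.periodic _,
    fun i => h.adj _, fun i d h1 h2 => by
      simp only [← Nat.add_assoc]; exact h.far _ _ h1 h2⟩

/-- Insert `x` into a cycle between positions `p` and `p + 1`; every old edge except that one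
survives, and the successor of every old vertex is the old one or `x`. -/
lemma IsCyc.insert {G : SimpleGraph V} {l : ℕ} {f : ℕ → V} (hl : 1 ≤ l) (h : IsCyc G l f)
    (p : ℕ) (x : V) (hx : ∀ i, f i ≠ x) (h1 : G.Adj (f p) x) (h2 : G.Adj x (f (p + 1))) :
    ∃ g : ℕ → V, IsCyc G (l + 1) g ∧ (∀ i, g i = x ∨ ∃ j, g i = f j) ∧
      ∀ q, ∃ r, g r = f q ∧ (g (r + 1) = f (q + 1) ∨ (f q = f p ∧ g (r + 1) = x)) := by
  set g : ℕ → V := fun i => if i % (l + 1) = 0 then x else f (p + i % (l + 1)) with hg
  refine ⟨g, ⟨fun i => ?_, ?_, fun i => ?_⟩, fun i => ?_, fun q => ?_⟩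
  · simp only [hg, Nat.add_mod_right]
  · intro i hi j hj hij
    simp only [hg, Nat.mod_eq_of_lt hi, Nat.mod_eq_of_lt hj] at hij
    split_ifs at hij with a b b
    · omega
    · exact absurd hij.symm (hx _)
    · exact absurd hij (hx _)
    · have e : (p + i) % l = (p + j) % l := by
        refine h.inj _ (Nat.mod_lt _ hl) _ (Nat.mod_lt _ hl) ?_
        rw [periodic_mod h.periodic, periodic_mod h.periodic, hij]
      have e' : i % l = j % l := Nat.ModEq.add_left_cancel' p e
      rcases (by omega : (i < l ∧ j < l) ∨ i = l ∨ j = l) with ⟨a', b'⟩ | rfl | rfl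
      · rwa [Nat.mod_eq_of_lt a', Nat.mod_eq_of_lt b'] at e'
      · rw [Nat.mod_self] at e'
        by_contra
        rw [Nat.mod_eq_of_lt (by omega : j < i)] at e'
        omega
      · rw [Nat.mod_self] at e'
        by_contra
        rw [Nat.mod_eq_of_lt (by omega : i < j)] at e'
        omega
  · have hr := Nat.mod_lt i (show l + 1 > 0 by omega)
    simp only [hg]
    rw [Nat.add_mod i 1, Nat.mod_eq_of_lt (show 1 < l + 1 by omega)]
    generalize i % (l + 1) = r at hr ⊢
    rcases (by omega : r = 0 ∨ (0 < r ∧ r < l) ∨ (0 < r ∧ r = l)) with rfl | ⟨a, b⟩ | ⟨a, rfl⟩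
    · rw [Nat.zero_add, Nat.mod_eq_of_lt (show 1 < l + 1 by omega)]
      simpa using h2
    · rw [Nat.mod_eq_of_lt (show r + 1 < l + 1 by omega), if_neg (by omega), if_neg (by omega),
        ← Nat.add_assoc]
      exact h.adj _
    · rw [Nat.mod_self, if_neg (by omega), if_pos rfl, h.periodic]
      exact h1
  · by_cases a : i % (l + 1) = 0
    · exact Or.inl (by simp [hg, a])
    · exact Or.inr ⟨p + i % (l + 1), by simp only [hg, if_neg a]⟩
  · set A := q + l * (p + 1) - (p + 1) with hA
    set r := A % l + 1 with hr
    have hrl : r ≤ l := Nat.mod_lt A hl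
    have hle : p + 1 ≤ l * (p + 1) := Nat.le_mul_of_pos_left _ (by omega)
    have hf : f (p + r) = f q := by
      rw [← periodic_mul h.periodic q (p + 1), ← periodic_mul h.periodic (p + r) (A / l)]
      congr 1
      have := Nat.mod_add_div A l
      omega
    refine ⟨r, ?_, ?_⟩
    · simp only [hg, Nat.mod_eq_of_lt (show r < l + 1 by omega)]
      rw [if_neg (by omega), hf]
    · rcases (by omega : r < l ∨ r = l) with a | a
      · left
        simp only [hg, Nat.mod_eq_of_lt (show r + 1 < l + 1 by omega)]
        rw [if_neg (by omega)]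
        have e : (p + r) % l = q % l := by
          have : p + r + l * (A / l) = q + l * (p + 1) := by
            have := Nat.mod_add_div A l; omega
          have := congrArg (· % l) this
          simpa [Nat.add_mul_mod_self_left] using this
        rw [← periodic_mod h.periodic (p + (r + 1)), ← periodic_mod h.periodic (q + 1),
          ← Nat.add_assoc, Nat.add_mod, e, ← Nat.add_mod]
      · right
        refine ⟨?_, ?_⟩
        · rw [← hf, a, h.periodic]
        · simp [hg, a]

/-- A walk with `l` edges, no two vertices at distance two along it being equal or adjacent. -/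
structure Turning (G : SimpleGraph V) (l : ℕ) (w : ℕ → V) : Prop where
  adj : ∀ i < l, G.Adj (w i) (w (i + 1))
  turn : ∀ i, i + 2 ≤ l → ¬ G.Adj (w i) (w (i + 2)) ∧ w i ≠ w (i + 2)

/-- A turning walk whose ends are equal or adjacent gives an induced cycle. -/
lemma exists_isIndCyc_of_closed {G : SimpleGraph V} :
    ∀ (l : ℕ) (w : ℕ → V), 2 ≤ l → Turning G l w → (G.Adj (w 0) (w l) ∨ w 0 = w l) →
      ∃ k c, k ≤ l + 1 ∧ IsIndCyc G k c := by
  intro l
  induction l using Nat.strong_induction_on with
  | _ l ih =>
    intro w hl hw hclose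
    by_cases hsub : ∃ i d, 2 ≤ d ∧ d < l ∧ i + d ≤ l ∧
        (G.Adj (w i) (w (i + d)) ∨ w i = w (i + d))
    · obtain ⟨i, d, h2, hd, hid, hc⟩ := hsub
      obtain ⟨k, c, hk, hkc⟩ := ih d hd (fun j => w (i + j)) h2
        ⟨fun j hj => by rw [← Nat.add_assoc]; exact hw.adj _ (by omega),
          fun j hj => by rw [← Nat.add_assoc]; exact hw.turn _ (by omega)⟩ (by simpa using hc)
      exact ⟨k, c, by omega, hkc⟩
    · push Not at hsub
      have hl3 : 3 ≤ l := by
        by_contra
        obtain rfl : l = 2 := by omega
        exact hclose.elim (hw.turn 0 le_rfl).1 (hw.turn 0 le_rfl).2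
      have hadj : G.Adj (w 0) (w l) := by
        refine hclose.resolve_right fun he => ?_
        have := hw.adj (l - 1) (by omega)
        rw [show l - 1 + 1 = l by omega, ← he] at this
        have h' := (hsub 0 (l - 1) (by omega) (by omega) (by omega)).1
        rw [Nat.zero_add] at h'
        exact h' this.symm
      refine ⟨l + 1, fun i => w (i % (l + 1)), le_rfl, by omega, fun i => by simp,
        fun i => ?_, fun i d h1 h2 => ?_⟩
      · have hr := Nat.mod_lt i (show l + 1 > 0 by omega)
        rw [Nat.add_mod i 1, Nat.mod_eq_of_lt (show 1 < l + 1 by omega)]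
        generalize i % (l + 1) = r at hr ⊢
        rcases (by omega : r < l ∨ r = l) with a | rfl
        · rw [Nat.mod_eq_of_lt (show r + 1 < l + 1 by omega)]
          exact hw.adj r a
        · rw [Nat.mod_self]
          exact hadj.symm
      · have hr := Nat.mod_lt i (show l + 1 > 0 by omega)
        rw [Nat.add_mod i d, Nat.mod_eq_of_lt (show d < l + 1 by omega)]
        generalize i % (l + 1) = r at hr ⊢
        rcases (by omega : r + d < l + 1 ∨ l + 1 ≤ r + d) with a | a
        · rw [Nat.mod_eq_of_lt a]
          exact hsub r d h1 (by omega) (by omega)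
        · rw [Nat.mod_eq_sub_mod a, Nat.mod_eq_of_lt (by omega)]
          have := hsub (r + d - (l + 1)) (l + 1 - d) (by omega) (by omega) (by omega)
          rw [show r + d - (l + 1) + (l + 1 - d) = r by omega] at this
          exact ⟨fun h => this.1 h.symm, fun h => this.2 h.symm⟩

/-- No vertex has three pairwise nonadjacent neighbours. -/
def ClawFree (G : SimpleGraph V) : Prop :=
  ∀ v x y z, G.Adj v x → G.Adj v y → G.Adj v z → x ≠ y → x ≠ z → y ≠ z →
    G.Adj x y ∨ G.Adj x z ∨ G.Adj y z

/-- Adjacency inside the neighbourhood of `v`. -/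
def NStep (G : SimpleGraph V) (v : V) (a b : V) : Prop := G.Adj v a ∧ G.Adj v b ∧ G.Adj a b

variable [Fintype V] [DecidableEq V]

open Classical in
/-- If the neighbourhood of `v` is connected then it has paths of all orders up to its size. -/
lemma exists_path_in_nhd {G : SimpleGraph V} (hcf : ClawFree G) {v x : V} (hx : G.Adj v x)
    (hconn : ∀ p, G.Adj v p → Relation.ReflTransGen (NStep G v) x p) :
    ∀ k, 1 ≤ k → k ≤ (G.neighborFinset v).card → ∃ f : ℕ → V,
      (∀ i < k, G.Adj v (f i)) ∧ (∀ i < k, ∀ j < k, f i = f j → i = j) ∧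
      ∀ i, i + 1 < k → G.Adj (f i) (f (i + 1)) := by
  intro k hk
  induction k, hk using Nat.le_induction with
  | base => exact fun _ => ⟨fun _ => x, fun i _ => hx, fun i hi j hj _ => by omega,
      fun i hi => by omega⟩
  | succ k hk ih =>
    intro hcard
    obtain ⟨f, hN, hinj, hadj⟩ := ih (by omega)
    set S := (Finset.range k).image f with hS
    have hScard : S.card = k := by
      rw [hS, Finset.card_image_of_injOn, Finset.card_range]
      intro a ha b hb e
      exact hinj a (by simpa using ha) b (by simpa using hb) e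
    obtain ⟨p, hp, hpS⟩ := Finset.exists_mem_notMem_of_card_lt_card
      (show S.card < (G.neighborFinset v).card by omega)
    rw [SimpleGraph.mem_neighborFinset] at hp
    have sym : ∀ a b, Relation.ReflTransGen (NStep G v) a b →
        Relation.ReflTransGen (NStep G v) b a := fun a b h => by
      induction h with
      | refl => exact .refl
      | tail _ hst ih => exact Relation.ReflTransGen.head ⟨hst.2.1, hst.1, hst.2.2.symm⟩ ih
    have reach : Relation.ReflTransGen (NStep G v) (f 0) p :=
      (sym _ _ (hconn _ (hN 0 (by omega)))).trans (hconn p hp)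
    have cross : ∃ a ∈ S, ∃ b, b ∉ S ∧ NStep G v a b := by
      clear hp
      induction reach with
      | refl => exact absurd (Finset.mem_image.2 ⟨0, Finset.mem_range.2 (by omega), rfl⟩) hpS
      | @tail b c _ hst ih =>
        by_cases hb : b ∈ S
        · exact ⟨b, hb, c, hpS, hst⟩
        · exact ih hb
    obtain ⟨a, ha, z, hz, -, hvz, haz⟩ := cross
    obtain ⟨i, hi, rfl⟩ := Finset.mem_image.1 ha
    rw [Finset.mem_range] at hi
    have hzne : ∀ j < k, f j ≠ z := fun j hj e =>
      hz (Finset.mem_image.2 ⟨j, Finset.mem_range.2 hj, e⟩)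
    by_cases hfirst : G.Adj z (f 0)
    · refine ⟨fun j => if j = 0 then z else f (j - 1), fun j hj => ?_, fun j hj l hl e => ?_,
        fun j hj => ?_⟩
      · dsimp only
        split_ifs with hj0
        · exact hvz
        · exact hN _ (by omega)
      · dsimp only at e
        split_ifs at e with a b b
        · omega
        · exact absurd e.symm (hzne _ (by omega))
        · exact absurd e (hzne _ (by omega))
        · have := hinj _ (by omega) _ (by omega) e
          omega
      · dsimp only
        rw [if_neg (by omega : ¬j + 1 = 0), Nat.add_sub_cancel]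
        split_ifs with hj0
        · subst hj0; exact hfirst
        · have := hadj (j - 1) (by omega)
          rwa [show j - 1 + 1 = j by omega] at this
    · -- the two ends are adjacent (or one of them is adjacent to `z`)
      by_cases hlast : G.Adj z (f (k - 1))
      · refine ⟨fun j => if j = k then z else f j, fun j hj => ?_, fun j hj l hl e => ?_,
          fun j hj => ?_⟩
        · dsimp only
          split_ifs with hj0
          · exact hvz
          · exact hN _ (by omega)
        · dsimp only at e
          split_ifs at e with a b b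
          · omega
          · exact absurd e.symm (hzne _ (by omega))
          · exact absurd e (hzne _ (by omega))
          · exact hinj _ (by omega) _ (by omega) e
        · dsimp only
          rw [if_neg (by omega : ¬j = k)]
          split_ifs with hj0
          · rw [show j = k - 1 by omega]; exact hlast.symm
          · exact hadj _ (by omega)
      · have hk2 : 2 ≤ k := by
          by_contra
          obtain rfl : i = 0 := by omega
          exact hfirst haz.symm
        have hend : G.Adj (f 0) (f (k - 1)) := by
          rcases hcf v (f 0) (f (k - 1)) z (hN _ (by omega)) (hN _ (by omega)) hvz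
            (fun e => by have := hinj _ (by omega) _ (by omega) e; omega)
            (hzne _ (by omega)) (hzne _ (by omega)) with h | h | h
          · exact h
          · exact absurd h.symm hfirst
          · exact absurd h.symm hlast
        have hmod : ∀ j, (i + j) % k < k := fun j => Nat.mod_lt _ (by omega)
        refine ⟨fun j => if j = 0 then z else f ((i + (j - 1)) % k), fun j hj => ?_,
          fun j hj l hl e => ?_, fun j hj => ?_⟩
        · dsimp only
          split_ifs with hj0
          · exact hvz
          · exact hN _ (hmod _)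
        · dsimp only at e
          split_ifs at e with a b b
          · omega
          · exact absurd e.symm (hzne _ (hmod _))
          · exact absurd e (hzne _ (hmod _))
          · have e' : (j - 1) % k = (l - 1) % k :=
              Nat.ModEq.add_left_cancel' i (hinj _ (hmod _) _ (hmod _) e)
            rw [Nat.mod_eq_of_lt (by omega), Nat.mod_eq_of_lt (by omega)] at e'
            omega
        · dsimp only
          rw [if_neg (by omega : ¬j + 1 = 0), Nat.add_sub_cancel]
          split_ifs with hj0
          · subst hj0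
            rw [Nat.add_zero, Nat.mod_eq_of_lt hi]
            exact haz.symm
          · have hlt := hmod (j - 1)
            have he : (i + j) % k = ((i + (j - 1)) % k + 1) % k := by
              rw [Nat.mod_add_mod]; congr 1; omega
            rw [he]
            generalize (i + (j - 1)) % k = r at hlt ⊢
            rcases (by omega : r + 1 < k ∨ r + 1 = k) with a | a
            · rw [Nat.mod_eq_of_lt a]; exact hadj r a
            · rw [a, Nat.mod_self, show r = k - 1 by omega]; exact hend.symm

open Classical in
lemma isCyc_of_connected_nhd {G : SimpleGraph V} (hcf : ClawFree G) {m : ℕ} (hm : 3 ≤ m) {v x : V}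
    (hx : G.Adj v x) (hdeg : m - 1 ≤ (G.neighborFinset v).card)
    (hconn : ∀ p, G.Adj v p → Relation.ReflTransGen (NStep G v) x p) :
    ∃ f, IsCyc G m f := by
  obtain ⟨f, hN, hinj, hadj⟩ := exists_path_in_nhd hcf hx hconn (m - 1) (by omega) hdeg
  refine ⟨fun i => if i % m = 0 then v else f (i % m - 1), fun i => ?_, ?_, fun i => ?_⟩
  · simp only [Nat.add_mod_right]
  · intro i hi j hj e
    simp only [Nat.mod_eq_of_lt hi, Nat.mod_eq_of_lt hj] at e
    split_ifs at e with a b b
    · omega
    · exact absurd e (hN _ (by omega)).ne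
    · exact absurd e.symm (hN _ (by omega)).ne
    · have := hinj _ (by omega) _ (by omega) e
      omega
  · have hr := Nat.mod_lt i (show m > 0 by omega)
    rw [Nat.add_mod i 1, Nat.mod_eq_of_lt (show 1 < m by omega)]
    generalize i % m = r at hr ⊢
    rcases (by omega : r = 0 ∨ (0 < r ∧ r + 1 < m) ∨ (0 < r ∧ r + 1 = m)) with
      rfl | ⟨a, b⟩ | ⟨a, b⟩
    · rw [if_pos rfl, Nat.zero_add, Nat.mod_eq_of_lt (show 1 < m by omega), if_neg (by omega)]
      exact hN _ (by omega)
    · rw [Nat.mod_eq_of_lt b, if_neg (by omega), if_neg (by omega), Nat.add_sub_cancel]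
      have := hadj (r - 1) (by omega)
      rwa [show r - 1 + 1 = r by omega] at this
    · rw [b, Nat.mod_self, if_neg (by omega), if_pos rfl]
      exact (hN _ (by omega)).symm

open Classical in
/-- Without a cycle of length `m`, adjacency is transitive inside every neighbourhood. -/
lemma nhd_trans {G : SimpleGraph V} (hcf : ClawFree G) {m : ℕ} (hm : 3 ≤ m)
    (hdeg : ∀ v, m - 1 ≤ (G.neighborFinset v).card) (hno : ∀ f, ¬ IsCyc G m f) {v x y z : V}
    (hx : G.Adj v x) (hy : G.Adj v y) (hz : G.Adj v z) (hxy : G.Adj x y) (hyz : G.Adj y z)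
    (hne : x ≠ z) : G.Adj x z := by
  by_contra hxz
  obtain ⟨p, hp, hpr⟩ : ∃ p, G.Adj v p ∧ ¬ Relation.ReflTransGen (NStep G v) x p := by
    by_contra h
    push Not at h
    obtain ⟨f, hf⟩ := isCyc_of_connected_nhd hcf hm hx (hdeg v) h
    exact hno f hf
  have rz : Relation.ReflTransGen (NStep G v) x z :=
    (Relation.ReflTransGen.single ⟨hx, hy, hxy⟩).tail ⟨hy, hz, hyz⟩
  rcases hcf v x z p hx hz hp hne (fun e => hpr (e ▸ .refl)) (fun e => hpr (e ▸ rz)) with h | h | h
  · exact hxz h
  · exact hpr (Relation.ReflTransGen.single ⟨hx, hp, h⟩)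
  · exact hpr (rz.tail ⟨hz, hp, h⟩)

open Classical in
/-- Without a cycle of length `m`, no neighbour of `v` is adjacent to all other neighbours. -/
lemma exists_other {G : SimpleGraph V} (hcf : ClawFree G) {m : ℕ} (hm : 3 ≤ m)
    (hdeg : ∀ v, m - 1 ≤ (G.neighborFinset v).card) (hno : ∀ f, ¬ IsCyc G m f) {v u : V}
    (hu : G.Adj v u) : ∃ w, G.Adj v w ∧ w ≠ u ∧ ¬ G.Adj w u := by
  by_contra h
  push Not at h
  obtain ⟨f, hf⟩ := isCyc_of_connected_nhd hcf hm hu (hdeg v) fun p hp => by
    by_cases e : p = u
    · exact e ▸ .refl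
    · exact Relation.ReflTransGen.single ⟨hu, hp, (h p hp e).symm⟩
  exact hno f hf

end Vale.Agent.P048
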