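import Vale.Agent.P048.Basic

/-!
A claw-free graph of minimum degree at least `m - 1` (`m ≥ 5`) has a cycle of length exactly `m`
or `m` pairwise nonadjacent vertices.
-/

namespace Vale.Agent.P048

variable {V : Type*} [Fintype V] [DecidableEq V] {G : SimpleGraph V} {m k : ℕ} {c : ℕ → V}

/-- Adjacency is transitive inside every neighbourhood. -/
def NhdTrans (G : SimpleGraph V) : Prop :=
  ∀ v x y z, G.Adj v x → G.Adj v y → G.Adj v z → G.Adj x y → G.Adj y z → x ≠ z → G.Adj x z

omit [Fintype V] [DecidableEq V] in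
lemma NhdTrans.sep (ht : NhdTrans G) {v p q x : V} (hp : G.Adj v p) (hq : G.Adj v q)
    (hx : G.Adj v x) (hne : p ≠ q) (hpq : ¬ G.Adj p q) (hxp : G.Adj x p) :
    ¬ G.Adj x q ∧ x ≠ q :=
  ⟨fun h => hpq (ht v p x q hp hx hq hxp.symm h hne), fun h => hpq (h ▸ hxp.symm)⟩

omit [Fintype V] [DecidableEq V] in
lemma NhdTrans.sep₂ (ht : NhdTrans G) {v p q x y : V} (hp : G.Adj v p) (hq : G.Adj v q)
    (hx : G.Adj v x) (hy : G.Adj v y) (hne : p ≠ q) (hpq : ¬ G.Adj p q) (hxp : G.Adj x p)
    (hyq : G.Adj y q) : ¬ G.Adj x y ∧ x ≠ y := by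
  obtain ⟨h1, h2⟩ := ht.sep hp hq hx hne hpq hxp
  exact ⟨fun h => h1 (ht v x y q hx hy hq h hyq h2), fun h => h1 (h ▸ hyq)⟩

omit [Fintype V] [DecidableEq V] in
/-- In a shortest induced cycle no short turning walk closes up. -/
lemma not_closed (hmin : ∀ k' c', IsIndCyc G k' c' → k ≤ k') {l : ℕ} {w : ℕ → V} (hl : 2 ≤ l)
    (hlk : l + 1 < k) (hw : Turning G l w) : ¬ G.Adj (w 0) (w l) ∧ w 0 ≠ w l := by
  constructor <;> intro h
  · obtain ⟨k', c', h1, h2⟩ := exists_isIndCyc_of_closed l w hl hw (Or.inl h)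
    have := hmin k' c' h2
    omega
  · obtain ⟨k', c', h1, h2⟩ := exists_isIndCyc_of_closed l w hl hw (Or.inr h)
    have := hmin k' c' h2
    omega

omit [DecidableEq V] in
lemma exists_isIndCyc [Nonempty V] (hnb : ∀ v : V, ∃ u, G.Adj v u)
    (hoth : ∀ v u, G.Adj v u → ∃ w, G.Adj v w ∧ w ≠ u ∧ ¬ G.Adj w u) :
    ∃ k c, IsIndCyc G k c := by
  obtain ⟨v0⟩ := ‹Nonempty V›
  obtain ⟨u0, hu0⟩ := hnb v0
  choose nx hnx using hoth
  -- consecutive pairs of the walk
  let st : {e : V × V // G.Adj e.2 e.1} → {e : V × V // G.Adj e.2 e.1} := fun e =>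
    ⟨(e.1.2, nx e.1.2 e.1.1 e.2), (hnx e.1.2 e.1.1 e.2).1.symm⟩
  let e : ℕ → {e : V × V // G.Adj e.2 e.1} := fun n => st^[n] ⟨(v0, u0), hu0.symm⟩
  have he : ∀ n, e (n + 1) = st (e n) := fun n => Function.iterate_succ_apply' _ _ _
  set w : ℕ → V := fun n => (e n).1.1 with hw
  have h1 : ∀ n, w (n + 1) = (e n).1.2 := fun n => by simp only [hw, he]; rfl
  have hadj : ∀ n, G.Adj (w n) (w (n + 1)) := fun n => by rw [h1]; exact (e n).2.symm
  have hturn : ∀ n, ¬ G.Adj (w n) (w (n + 2)) ∧ w n ≠ w (n + 2) := fun n => by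
    have h2 : w (n + 2) = nx (e n).1.2 (e n).1.1 (e n).2 := by rw [h1, he]
    rw [h2]
    exact ⟨fun h => (hnx _ _ (e n).2).2.2 h.symm, fun h => (hnx _ _ (e n).2).2.1 h.symm⟩
  obtain ⟨i, j, hne, hij⟩ := Finite.exists_ne_map_eq_of_infinite w
  wlog hle : i ≤ j generalizing i j with H
  · exact H j i hne.symm hij.symm (by omega)
  obtain ⟨d, rfl⟩ := Nat.exists_eq_add_of_le hle
  have hd : 2 ≤ d := by
    by_contra
    obtain rfl : d = 1 := by omega
    exact (hadj i).ne hij
  obtain ⟨k, c, -, hc⟩ := exists_isIndCyc_of_closed d (fun r => w (i + r)) hd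
    ⟨fun r _ => by rw [← Nat.add_assoc]; exact hadj _,
      fun r _ => by rw [← Nat.add_assoc]; exact hturn _⟩ (Or.inr (by simpa using hij))
  exact ⟨k, c, hc⟩

/-- The common neighbours of the two ends of an edge of the cycle `c`. -/
def Common (G : SimpleGraph V) (c : ℕ → V) (j : ℕ) (x : V) : Prop :=
  G.Adj x (c j) ∧ G.Adj x (c (j + 1))

omit [Fintype V] in
/-- Common neighbours of cycle edges can be inserted one at a time. -/
lemma exists_cyc_insert (ht : NhdTrans G) (hc : IsIndCyc G k c) :
    ∀ S : Finset V, (∀ x ∈ S, (∃ j, Common G c j x) ∧ ∀ i, c i ≠ x) →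
      ∃ f, IsCyc G (k + S.card) f ∧ (∀ i, f i ∈ S ∨ ∃ j, f i = c j) ∧
        ∀ j, ∃ p, f p = c j ∧ (f (p + 1) = c (j + 1) ∨ Common G c j (f (p + 1))) := by
  intro S
  induction S using Finset.induction_on with
  | empty =>
    exact fun _ => ⟨c, by simpa using hc.isCyc, fun i => Or.inr ⟨i, rfl⟩,
      fun j => ⟨j, rfl, Or.inl rfl⟩⟩
  | @insert x S hxS ih =>
    intro hall
    obtain ⟨f, hf, hmem, hsucc⟩ := ih fun y hy => hall y (Finset.mem_insert_of_mem hy)
    obtain ⟨⟨j, hxj, hxj'⟩, hxc⟩ := hall x (Finset.mem_insert_self _ _)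
    have hxf : ∀ i, f i ≠ x := fun i e => by
      rcases hmem i with h | ⟨l, h⟩
      · exact hxS (e ▸ h)
      · exact hxc l (h.symm.trans e)
    obtain ⟨p, hp, hp'⟩ := hsucc j
    have h2 : G.Adj x (f (p + 1)) := by
      rcases hp' with h | ⟨h, h'⟩
      · rw [h]; exact hxj'
      · exact ht (c j) x (c (j + 1)) (f (p + 1)) hxj.symm (hc.adj j) h.symm hxj' h'.symm
          (hxf _).symm
    have hk := hc.four_le
    obtain ⟨g, hg, hgmem, hgsucc⟩ :=
      hf.insert (by omega) p x hxf (by rw [hp]; exact hxj.symm) h2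
    refine ⟨g, ?_, fun i => ?_, fun j' => ?_⟩
    · rw [Finset.card_insert_of_notMem hxS, ← Nat.add_assoc]; exact hg
    · rcases hgmem i with h | ⟨l, h⟩
      · exact Or.inl (Finset.mem_insert.2 (Or.inl h))
      · rcases hmem l with h' | ⟨l', h'⟩
        · exact Or.inl (Finset.mem_insert_of_mem (h ▸ h'))
        · exact Or.inr ⟨l', h.trans h'⟩
    · obtain ⟨p', hq, hq'⟩ := hsucc j'
      obtain ⟨r, hr, hr'⟩ := hgsucc p'
      refine ⟨r, hr.trans hq, ?_⟩
      rcases hr' with h | ⟨h, h'⟩
      · rw [h]; exact hq'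
      · rw [h']
        have e : c j' = c j := by rw [← hq, h, hp]
        have e' : c (j' + 1) = c (j + 1) := by
          rw [← periodic_mod hc.periodic (j' + 1), ← periodic_mod hc.periodic (j + 1)]
          have : j' % k = j % k := hc.isCyc.inj _ (Nat.mod_lt _ (by omega)) _
            (Nat.mod_lt _ (by omega)) (by rw [periodic_mod hc.periodic, periodic_mod hc.periodic, e])
          rw [Nat.add_mod j', this, ← Nat.add_mod]
        exact Or.inr ⟨e ▸ hxj, e' ▸ hxj'⟩

open Classical in
/-- A claw-free graph of minimum degree at least `m - 1` has an `m`-cycle or `m` independent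
vertices. -/
theorem cycle_or_indep [Nonempty V] (hcf : ClawFree G) (hm : 5 ≤ m)
    (hdeg : ∀ v, m - 1 ≤ (G.neighborFinset v).card) :
    (∃ f, IsCyc G m f) ∨
      ∃ t : Finset V, t.card = m ∧ ∀ a ∈ t, ∀ b ∈ t, ¬ G.Adj a b := by
  by_cases hno : ∃ f, IsCyc G m f
  · exact Or.inl hno
  right
  push Not at hno
  have ht : NhdTrans G := fun v x y z => nhd_trans hcf (by omega) hdeg hno
  have hnb : ∀ v : V, ∃ u, G.Adj v u := fun v => by
    obtain ⟨u, hu⟩ := Finset.card_pos.1 (show 0 < (G.neighborFinset v).card by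
      have := hdeg v; omega)
    exact ⟨u, (G.mem_neighborFinset v u).1 hu⟩
  have hoth : ∀ v u, G.Adj v u → ∃ w, G.Adj v w ∧ w ≠ u ∧ ¬ G.Adj w u :=
    fun v u h => exists_other hcf (by omega) hdeg hno h
  have hex : ∃ k, ∃ c, IsIndCyc G k c := exists_isIndCyc hnb hoth
  obtain ⟨c, hc⟩ := Nat.find_spec hex
  have hmin : ∀ k' c', IsIndCyc G k' c' → Nat.find hex ≤ k' :=
    fun k' c' h => Nat.find_min' hex ⟨c', h⟩
  generalize Nat.find hex = k at hc hmin
  have hk := hc.four_le
  -- neighbours of a cycle vertex other than its two cycle neighbours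
  have hE : ∀ (d : ℕ → V), IsIndCyc G k d → ∀ x, G.Adj (d 1) x → x ≠ d 0 → x ≠ d 2 →
      (Common G d 0 x ∨ Common G d 1 x) ∧ ∀ i, d i ≠ x := by
    intro d hd x hx h0 h2
    have h01 : G.Adj (d 1) (d 0) := (hd.adj 0).symm
    refine ⟨?_, fun i hi => ?_⟩
    · obtain ⟨hn, hne⟩ := hd.far 0 2 le_rfl (by omega)
      rcases hcf (d 1) (d 0) (d 2) x h01 (hd.adj 1) hx hne h0.symm h2.symm with h | h | h
      · exact absurd h hn
      · exact Or.inl ⟨h.symm, hx.symm⟩
      · exact Or.inr ⟨hx.symm, h.symm⟩
    · rw [← periodic_mod hd.periodic i] at hi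
      have hik := Nat.mod_lt i (show k > 0 by omega)
      generalize i % k = r at hi hik
      rcases (by omega : r = 0 ∨ r = 1 ∨ r = 2 ∨ 3 ≤ r) with rfl | rfl | rfl | h3
      · exact h0 hi.symm
      · exact hx.ne hi
      · exact h2 hi.symm
      · have := (hd.far 1 (r - 1) (by omega) (by omega)).1
        rw [show 1 + (r - 1) = r by omega, hi] at this
        exact this hx
  -- a short shortest induced cycle gives the `m`-cycle
  have hkm : m < k := by
    by_contra hle
    set E := ((G.neighborFinset (c 1)).erase (c 0)).erase (c 2) with hEdef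
    have hEcard : m - k ≤ E.card := by
      have h1 := Finset.pred_card_le_card_erase (s := G.neighborFinset (c 1)) (a := c 0)
      have h2 := Finset.pred_card_le_card_erase (s := (G.neighborFinset (c 1)).erase (c 0))
        (a := c 2)
      have := hdeg (c 1)
      rw [hEdef]
      omega
    obtain ⟨S, hSE, hS⟩ := Finset.exists_subset_card_eq hEcard
    obtain ⟨f, hf, -, -⟩ := exists_cyc_insert ht hc S fun x hx => by
      have hxE := hSE hx
      simp only [hEdef, Finset.mem_erase, SimpleGraph.mem_neighborFinset] at hxE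
      obtain ⟨h, h'⟩ := hE c hc x hxE.2.2 hxE.2.1 hxE.1
      exact ⟨h.elim (fun h => ⟨0, h⟩) (fun h => ⟨1, h⟩), h'⟩
    rw [hS, show k + (m - k) = m by omega] at hf
    exact hno f hf
  have hk6 : 6 ≤ k := by omega
  by_cases hA : ∀ i, ∃ x, Common G c i x
  · -- every edge of the cycle has a common neighbour
    choose X hX using hA
    set Y : ℕ → V := fun i => X (i % k) with hY
    have hYc : ∀ i, Common G c i (Y i) := fun i => by
      have h := hX (i % k)
      refine ⟨periodic_mod hc.periodic i ▸ h.1, ?_⟩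
      have e : c (i % k + 1) = c (i + 1) := by
        rw [← periodic_mul hc.periodic (i % k + 1) (i / k)]
        congr 1
        have := Nat.mod_add_div i k
        omega
      exact e ▸ h.2
    have short : ∀ i d, 1 ≤ d → 2 * d ≤ k →
        ¬ G.Adj (Y i) (Y (i + d)) ∧ Y i ≠ Y (i + d) := by
      intro i d h1 h2
      have sep : ∀ j, ¬ G.Adj (Y j) (c (j + 2)) ∧ Y j ≠ c (j + 2) := fun j =>
        ht.sep (hc.adj j).symm (hc.adj (j + 1)) (hYc j).2.symm (hc.far j 2 le_rfl (by omega)).2
          (hc.far j 2 le_rfl (by omega)).1 (hYc j).1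
      have sep' : ∀ j, ¬ G.Adj (c j) (Y (j + 1)) ∧ c j ≠ Y (j + 1) := fun j => by
        obtain ⟨h, h'⟩ := ht.sep (hc.adj (j + 1)) (hc.adj j).symm (hYc (j + 1)).1.symm
          (hc.far j 2 le_rfl (by omega)).2.symm
          (fun h => (hc.far j 2 le_rfl (by omega)).1 h.symm) (hYc (j + 1)).2
        exact ⟨fun e => h e.symm, fun e => h' e.symm⟩
      rcases (by omega : d = 1 ∨ 2 ≤ d) with rfl | h2'
      · exact ht.sep₂ (hc.adj i).symm (hc.adj (i + 1)) (hYc i).2.symm (hYc (i + 1)).1.symm
          (hc.far i 2 le_rfl (by omega)).2 (hc.far i 2 le_rfl (by omega)).1 (hYc i).1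
          (hYc (i + 1)).2
      · set w : ℕ → V := fun r => if r = 0 then Y i else if r ≤ d then c (i + r) else Y (i + d)
          with hw
        have := not_closed hmin (l := d + 1) (w := w) (by omega) (by omega)
          ⟨fun r hr => ?_, fun r hr => ?_⟩
        · simpa [hw] using this
        · rcases (by omega : r = 0 ∨ (0 < r ∧ r < d) ∨ (0 < r ∧ r = d)) with
            rfl | ⟨a, b⟩ | ⟨a, rfl⟩
          · simp only [hw, ↓reduceIte, Nat.zero_add, one_ne_zero,
              if_pos (show 1 ≤ d by omega)]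
            exact (hYc i).2
          · simp only [hw, if_neg (show ¬r = 0 by omega), if_neg (show ¬r + 1 = 0 by omega),
              if_pos (show r ≤ d by omega), if_pos (show r + 1 ≤ d by omega), ← Nat.add_assoc]
            exact hc.adj _
          · simp only [hw, if_neg (show ¬r = 0 by omega), if_neg (show ¬r + 1 = 0 by omega),
              if_pos (le_refl r), if_neg (show ¬r + 1 ≤ r by omega)]
            exact (hYc _).1.symm
        · rcases (by omega : r = 0 ∨ (0 < r ∧ r + 2 ≤ d) ∨ (0 < r ∧ r + 1 = d)) with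
            rfl | ⟨a, b⟩ | ⟨a, b⟩
          · simp only [hw, ↓reduceIte, Nat.zero_add, if_neg (show ¬2 = 0 by omega),
              if_pos h2']
            exact sep i
          · simp only [hw, if_neg (show ¬r = 0 by omega), if_neg (show ¬r + 2 = 0 by omega),
              if_pos (show r ≤ d by omega), if_pos b, ← Nat.add_assoc]
            exact hc.far _ 2 le_rfl (by omega)
          · obtain rfl : d = r + 1 := b.symm
            simp only [hw, if_neg (show ¬r = 0 by omega), if_neg (show ¬r + 2 = 0 by omega),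
              if_pos (show r ≤ r + 1 by omega), if_neg (show ¬r + 2 ≤ r + 1 by omega),
              ← Nat.add_assoc]
            exact sep' _
    have hne : ∀ i j, i < j → j < k → ¬ G.Adj (Y i) (Y j) ∧ Y i ≠ Y j := by
      intro i j hij hj
      by_cases h : 2 * (j - i) ≤ k
      · have := short i (j - i) (by omega) h
        rwa [show i + (j - i) = j by omega] at this
      · have := short j (k - (j - i)) (by omega) (by omega)
        have e : Y (j + (k - (j - i))) = Y i := by
          rw [show j + (k - (j - i)) = i + k by omega]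
          simp [hY]
        rw [e] at this
        exact ⟨fun h => this.1 h.symm, fun h => this.2 h.symm⟩
    refine ⟨(Finset.range m).image Y, ?_, ?_⟩
    · rw [Finset.card_image_of_injOn, Finset.card_range]
      intro a ha b hb e
      simp only [Finset.coe_range, Set.mem_Iio] at ha hb
      rcases lt_trichotomy a b with h | h | h
      · exact absurd e (hne a b h (by omega)).2
      · exact h
      · exact absurd e.symm (hne b a h (by omega)).2
    · intro a ha b hb hab
      simp only [Finset.mem_image, Finset.mem_range] at ha hb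
      obtain ⟨i, hi, rfl⟩ := ha
      obtain ⟨j, hj, rfl⟩ := hb
      rcases lt_trichotomy i j with h | h | h
      · exact (hne i j h (by omega)).1 hab
      · exact hab.ne (by rw [h])
      · exact (hne j i h (by omega)).1 hab.symm
  · -- some edge has none: shift it to `c 1 -- c 2`
    push Not at hA
    obtain ⟨i₀, hi₀⟩ := hA
    set d : ℕ → V := fun i => c (i₀ + (k - 1) + i) with hd'
    have hd : IsIndCyc G k d := hc.shift _
    have hL1 : ∀ x, ¬ Common G d 1 x := fun x ⟨h, h'⟩ => by
      simp only [hd'] at h h'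
      rw [show i₀ + (k - 1) + 1 = i₀ + k by omega, hc.periodic] at h
      rw [show i₀ + (k - 1) + (1 + 1) = i₀ + 1 + k by omega, hc.periodic] at h'
      exact hi₀ x ⟨h, h'⟩
    set E := ((G.neighborFinset (d 1)).erase (d 0)).erase (d 2) with hEdef
    have hEcard : m - 3 ≤ E.card := by
      have h1 := Finset.pred_card_le_card_erase (s := G.neighborFinset (d 1)) (a := d 0)
      have h2 := Finset.pred_card_le_card_erase (s := (G.neighborFinset (d 1)).erase (d 0))
        (a := d 2)
      have := hdeg (d 1)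
      rw [hEdef]
      omega
    have hEmem : ∀ x ∈ E, Common G d 0 x ∧ ∀ i, d i ≠ x := fun x hx => by
      simp only [hEdef, Finset.mem_erase, SimpleGraph.mem_neighborFinset] at hx
      obtain ⟨h, h'⟩ := hE d hd x hx.2.2 hx.2.1 hx.1
      exact ⟨h.resolve_right (hL1 x), h'⟩
    have hy : ∀ x, ∃ y, x ∈ E → G.Adj x y ∧ y ≠ d 1 ∧ ¬ G.Adj y (d 1) := fun x => by
      by_cases hx : x ∈ E
      · obtain ⟨y, hy⟩ := hoth x (d 1) (hEmem x hx).1.2
        exact ⟨y, fun _ => hy⟩
      · exact ⟨x, fun h => absurd h hx⟩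
    choose y hy using hy
    have hd01 : G.Adj (d 0) (d 1) := hd.adj 0
    have hy0 : ∀ x ∈ E, ¬ G.Adj (y x) (d 0) ∧ y x ≠ d 0 := fun x hx => by
      obtain ⟨h1, h2, h3⟩ := hy x hx
      exact ⟨fun h => h3 (ht x (y x) (d 0) (d 1) h1 (hEmem x hx).1.1 (hEmem x hx).1.2 h hd01 h2),
        fun h => h3 (h ▸ hd01)⟩
    have hyy : ∀ x ∈ E, ∀ x' ∈ E, x ≠ x' → ¬ G.Adj (y x) (y x') ∧ y x ≠ y x' := by
      intro x hx x' hx' hne
      have hxx : G.Adj x x' := ht (d 1) x (d 0) x' (hEmem x hx).1.2.symm hd01.symm
        (hEmem x' hx').1.2.symm (hEmem x hx).1.1 (hEmem x' hx').1.1.symm hne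
      have side : ∀ z z', z ∈ E → z' ∈ E → G.Adj z z' →
          ¬ G.Adj (y z) z' ∧ y z ≠ z' := fun z z' hz hz' hzz => by
        obtain ⟨h1, h2, h3⟩ := hy z hz
        exact ⟨fun h => h3 (ht z (y z) z' (d 1) h1 hzz (hEmem z hz).1.2 h (hEmem z' hz').1.2 h2),
          fun h => h3 (h ▸ (hEmem z' hz').1.2)⟩
      set w : ℕ → V := fun r => if r = 0 then y x else if r = 1 then x else if r = 2 then x'
        else y x' with hw
      have := not_closed hmin (l := 3) (w := w) (by omega) (by omega)
        ⟨fun r hr => ?_, fun r hr => ?_⟩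
      · simpa [hw] using this
      · rcases (by omega : r = 0 ∨ r = 1 ∨ r = 2) with rfl | rfl | rfl
        · simpa [hw] using (hy x hx).1.symm
        · simpa [hw] using hxx
        · simpa [hw] using (hy x' hx').1
      · rcases (by omega : r = 0 ∨ r = 1) with rfl | rfl
        · simpa [hw] using side x x' hx hx' hxx
        · have := side x' x hx' hx hxx.symm
          simp only [hw, ↓reduceIte, one_ne_zero, Nat.reduceAdd, Nat.reduceEqDiff]
          exact ⟨fun h => this.1 h.symm, fun h => this.2 h.symm⟩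
    -- forwards from `d 1`, backwards from `d 0 = d k`
    have hfw : ∀ x ∈ E, ∀ s, s + 3 < k → ¬ G.Adj (y x) (d (1 + s)) ∧ y x ≠ d (1 + s) := by
      intro x hx s hs
      set w : ℕ → V := fun r => if r = 0 then y x else if r = 1 then x else d (r - 1) with hw
      have := not_closed hmin (l := 2 + s) (w := w) (by omega) (by omega)
        ⟨fun r hr => ?_, fun r hr => ?_⟩
      · simpa [hw, show 2 + s - 1 = 1 + s by omega, show ¬2 + s = 1 by omega] using this
      · rcases (by omega : r = 0 ∨ r = 1 ∨ 2 ≤ r) with rfl | rfl | h2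
        · simpa [hw] using (hy x hx).1.symm
        · simpa [hw] using (hEmem x hx).1.2
        · simp only [hw, if_neg (show ¬r = 0 by omega), if_neg (show ¬r = 1 by omega),
            if_neg (show ¬r + 1 = 0 by omega), if_neg (show ¬r + 1 = 1 by omega)]
          have := hd.adj (r - 1)
          rwa [show r - 1 + 1 = r + 1 - 1 by omega] at this
      · rcases (by omega : r = 0 ∨ r = 1 ∨ 2 ≤ r) with rfl | rfl | h2
        · simpa [hw] using And.intro (hy x hx).2.2 (hy x hx).2.1
        · simp only [hw, ↓reduceIte, one_ne_zero, Nat.reduceAdd, Nat.reduceEqDiff,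
            Nat.reduceSub]
          exact ⟨fun h => hL1 x ⟨(hEmem x hx).1.2, h⟩, fun h => (hEmem x hx).2 2 h.symm⟩
        · simp only [hw, if_neg (show ¬r = 0 by omega), if_neg (show ¬r = 1 by omega),
            if_neg (show ¬r + 2 = 0 by omega), if_neg (show ¬r + 2 = 1 by omega)]
          have := hd.far (r - 1) 2 le_rfl (by omega)
          rwa [show r - 1 + 2 = r + 2 - 1 by omega] at this
    have hbw : ∀ x ∈ E, ∀ s, s + 3 < k → ¬ G.Adj (y x) (d (k - s)) ∧ y x ≠ d (k - s) := by
      intro x hx s hs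
      have hdk : d k = d 0 := by simpa using hd.periodic 0
      set w : ℕ → V := fun r => if r = 0 then y x else if r = 1 then x else d (k + 2 - r) with hw
      have := not_closed hmin (l := 2 + s) (w := w) (by omega) (by omega)
        ⟨fun r hr => ?_, fun r hr => ?_⟩
      · simpa [hw, show k + 2 - (2 + s) = k - s by omega,
          show ¬2 + s = 1 by omega] using this
      · rcases (by omega : r = 0 ∨ r = 1 ∨ 2 ≤ r) with rfl | rfl | h2
        · simpa [hw] using (hy x hx).1.symm
        · simpa [hw, hdk] using (hEmem x hx).1.1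
        · simp only [hw, if_neg (show ¬r = 0 by omega), if_neg (show ¬r = 1 by omega),
            if_neg (show ¬r + 1 = 0 by omega), if_neg (show ¬r + 1 = 1 by omega)]
          have := (hd.adj (k + 2 - (r + 1))).symm
          rwa [show k + 2 - (r + 1) + 1 = k + 2 - r by omega] at this
      · rcases (by omega : r = 0 ∨ r = 1 ∨ 2 ≤ r) with rfl | rfl | h2
        · simpa [hw, hdk] using hy0 x hx
        · simp only [hw, ↓reduceIte, one_ne_zero, Nat.reduceAdd, Nat.reduceEqDiff]
          rw [show k + 2 - 3 = k - 1 by omega]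
          have hlast : G.Adj (d 0) (d (k - 1)) := by
            have := hd.adj (k - 1)
            rw [show k - 1 + 1 = k by omega, hdk] at this
            exact this.symm
          have hfar := hd.far 1 (k - 2) (by omega) (by omega)
          rw [show 1 + (k - 2) = k - 1 by omega] at hfar
          exact ht.sep hd01 hlast (hEmem x hx).1.1.symm hfar.2 hfar.1 (hEmem x hx).1.2
        · simp only [hw, if_neg (show ¬r = 0 by omega), if_neg (show ¬r = 1 by omega),
            if_neg (show ¬r + 2 = 0 by omega), if_neg (show ¬r + 2 = 1 by omega)]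
          have := hd.far (k + 2 - (r + 2)) 2 le_rfl (by omega)
          rw [show k + 2 - (r + 2) + 2 = k + 2 - r by omega] at this
          exact ⟨fun h => this.1 h.symm, fun h => this.2 h.symm⟩
    have hyd : ∀ x ∈ E, ∀ j < k, ¬ G.Adj (y x) (d j) ∧ y x ≠ d j := fun x hx j hj => by
      rcases (by omega : j = 0 ∨ (0 < j ∧ j + 2 < k) ∨ (j + 2 ≥ k)) with rfl | ⟨h1, h2⟩ | h
      · exact hy0 x hx
      · have := hfw x hx (j - 1) (by omega)
        rwa [show 1 + (j - 1) = j by omega] at this
      · have := hbw x hx (k - j) (by omega)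
        rwa [show k - (k - j) = j by omega] at this
    have hdd : ∀ i j, i < j → j < k / 2 →
        ¬ G.Adj (d (2 * i)) (d (2 * j)) ∧ d (2 * i) ≠ d (2 * j) := fun i j h1 h2 => by
      have := hd.far (2 * i) (2 * j - 2 * i) (by omega) (by omega)
      rwa [show 2 * i + (2 * j - 2 * i) = 2 * j by omega] at this
    set A := E.image y with hAdef
    set B := (Finset.range (k / 2)).image (fun i => d (2 * i)) with hBdef
    have hAc : A.card = E.card := Finset.card_image_of_injOn fun a ha b hb e => by
      by_contra hne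
      exact (hyy a ha b hb hne).2 e
    have hBc : B.card = k / 2 := by
      rw [hBdef, Finset.card_image_of_injOn, Finset.card_range]
      intro a ha b hb e
      simp only [Finset.coe_range, Set.mem_Iio] at ha hb
      rcases lt_trichotomy a b with h | h | h
      · exact absurd e (hdd a b h hb).2
      · exact h
      · exact absurd e.symm (hdd b a h ha).2
    have hdis : Disjoint A B := by
      rw [Finset.disjoint_left]
      intro z hz hz'
      simp only [hAdef, hBdef, Finset.mem_image, Finset.mem_range] at hz hz'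
      obtain ⟨x, hx, rfl⟩ := hz
      obtain ⟨j, hj, hj'⟩ := hz'
      exact (hyd x hx (2 * j) (by omega)).2 hj'.symm
    have hcard : m ≤ (A ∪ B).card := by
      rw [Finset.card_union_of_disjoint hdis, hAc, hBc]; omega
    obtain ⟨t, htAB, htc⟩ := Finset.exists_subset_card_eq hcard
    refine ⟨t, htc, fun a ha b hb hab => ?_⟩
    have key : ∀ a ∈ A ∪ B, ∀ b ∈ A ∪ B, ¬ G.Adj a b := by
      intro a ha b hb hab
      simp only [hAdef, hBdef, Finset.mem_union, Finset.mem_image, Finset.mem_range] at ha hb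
      rcases ha with ⟨x, hx, rfl⟩ | ⟨i, hi, rfl⟩ <;> rcases hb with ⟨x', hx', rfl⟩ | ⟨j, hj, rfl⟩
      · by_cases e : x = x'
        · exact hab.ne (by rw [e])
        · exact (hyy x hx x' hx' e).1 hab
      · exact (hyd x hx (2 * j) (by omega)).1 hab
      · exact (hyd x' hx' (2 * i) (by omega)).1 hab.symm
      · rcases lt_trichotomy i j with h | h | h
        · exact (hdd i j h hj).1 hab
        · exact hab.ne (by rw [h])
        · exact (hdd j i h hi).1 hab.symm
    exact key a (htAB ha) b (htAB hb) hab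

end Vale.Agent.P048
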