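import Vale.Agent.P048.Core

/-!
From minimum degree to the Ramsey statement: induction on the independence number.
-/

namespace Vale.Agent.P048

variable {V : Type*} [Fintype V] [DecidableEq V] {G : SimpleGraph V} {m : ℕ}

omit [Fintype V] in
open Classical in
lemma cycle_or_indep_finset (hcf : ClawFree G) (hm : 5 ≤ m) :
    ∀ a < m, ∀ s : Finset V, (m - 1) * a < s.card →
      (∃ f, IsCyc G m f) ∨
        ∃ t : Finset V, t ⊆ s ∧ t.card = a + 1 ∧ ∀ x ∈ t, ∀ y ∈ t, ¬ G.Adj x y := by
  intro a
  induction a with
  | zero =>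
    intro _ s hs
    obtain ⟨v, hv⟩ := Finset.card_pos.1 (show 0 < s.card by omega)
    refine Or.inr ⟨{v}, by simpa using hv, by simp, fun x hx y hy h => ?_⟩
    rw [Finset.mem_singleton] at hx hy
    exact h.ne (by rw [hx, hy])
  | succ a ih =>
    intro ha s hs
    by_cases hlow : ∃ v ∈ s, (s.filter (G.Adj v)).card + 1 ≤ m - 1
    · obtain ⟨v, hv, hlow⟩ := hlow
      set N := insert v (s.filter (G.Adj v)) with hN
      have hNc : N.card ≤ m - 1 := (Finset.card_insert_le _ _).trans hlow
      have hs' : (m - 1) * a < (s \ N).card := by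
        have h1 := Finset.le_card_sdiff N s
        rw [Nat.mul_succ] at hs
        omega
      rcases ih (by omega) (s \ N) hs' with h | ⟨t, hts, htc, hti⟩
      · exact Or.inl h
      have hnot : ∀ x ∈ t, x ≠ v ∧ ¬ G.Adj v x := fun x hx => by
        obtain ⟨hxs, hxN⟩ := Finset.mem_sdiff.1 (hts hx)
        simp only [hN, Finset.mem_insert, Finset.mem_filter] at hxN
        exact ⟨fun e => hxN (Or.inl e), fun e => hxN (Or.inr ⟨hxs, e⟩)⟩
      refine Or.inr ⟨insert v t, ?_, ?_, ?_⟩
      · exact Finset.insert_subset hv (hts.trans Finset.sdiff_subset)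
      · rw [Finset.card_insert_of_notMem fun h => (hnot v h).1 rfl, htc]
      · intro x hx y hy hxy
        rw [Finset.mem_insert] at hx hy
        rcases hx with rfl | hx <;> rcases hy with rfl | hy
        · exact hxy.ne rfl
        · exact (hnot y hy).2 hxy
        · exact (hnot x hx).2 hxy.symm
        · exact hti x hx y hy hxy
    · push Not at hlow
      have hne : s.Nonempty := Finset.card_pos.1 (by omega)
      have : Nonempty {x // x ∈ s} := hne.to_subtype
      let H : SimpleGraph {x // x ∈ s} := G.comap Subtype.val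
      have hHcf : ClawFree H := fun v x y z hx hy hz h1 h2 h3 =>
        hcf v.1 x.1 y.1 z.1 hx hy hz (fun e => h1 (Subtype.ext e))
          (fun e => h2 (Subtype.ext e)) (fun e => h3 (Subtype.ext e))
      have hdeg : ∀ v, m - 1 ≤ (H.neighborFinset v).card := fun v => by
        have h1 : (s.filter (G.Adj v.1)).card ≤ (H.neighborFinset v).card := by
          refine (Finset.card_le_card (t := (H.neighborFinset v).image Subtype.val) ?_).trans
            Finset.card_image_le
          intro x hx
          rw [Finset.mem_filter] at hx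
          exact Finset.mem_image.2 ⟨⟨x, hx.1⟩, (H.mem_neighborFinset _ _).2 hx.2, rfl⟩
        have := hlow v.1 v.2
        omega
      rcases cycle_or_indep hHcf hm hdeg with ⟨f, hf⟩ | ⟨t, htc, hti⟩
      · exact Or.inl ⟨fun i => (f i).1, fun i => congrArg Subtype.val (hf.periodic i),
          fun i hi j hj e => hf.inj i hi j hj (Subtype.ext e), fun i => hf.adj i⟩
      · obtain ⟨u, hu, huc⟩ :=
          Finset.exists_subset_card_eq (show a + 1 + 1 ≤ t.card by omega)
        refine Or.inr ⟨u.image Subtype.val, ?_, ?_, ?_⟩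
        · intro x hx
          obtain ⟨y, -, rfl⟩ := Finset.mem_image.1 hx
          exact y.2
        · rw [Finset.card_image_of_injective _ Subtype.val_injective, huc]
        · intro x hx y hy
          obtain ⟨x', hx', rfl⟩ := Finset.mem_image.1 hx
          obtain ⟨y', hy', rfl⟩ := Finset.mem_image.1 hy
          exact hti x' (hu hx') y' (hu hy')

omit [Fintype V] [DecidableEq V] in
lemma clawFree_of_not_isIndContained
    (h : ¬ (completeBipartiteGraph (Fin 1) (Fin 3)).IsIndContained G) : ClawFree G := by
  intro v x y z hx hy hz hxy hxz hyz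
  by_contra hc
  push Not at hc
  obtain ⟨h1, h2, h3⟩ := hc
  set F : Fin 1 ⊕ Fin 3 → V := Sum.elim (fun _ => v) ![x, y, z] with hF
  have hinj : Function.Injective F := by
    rintro (a | a) (b | b) e
    · simp [Subsingleton.elim a b]
    · fin_cases b <;> simp_all
    · fin_cases a <;> simp_all
    · fin_cases a <;> fin_cases b <;> simp_all
  have hadj : ∀ i j, G.Adj (F i) (F j) ↔ (completeBipartiteGraph (Fin 1) (Fin 3)).Adj i j := by
    rintro (a | a) (b | b)
    · simp [hF]
    · fin_cases b <;> simp [hF, hx, hy, hz]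
    · fin_cases a <;> simp [hF, hx.symm, hy.symm, hz.symm]
    · fin_cases a <;> fin_cases b <;>
        simp [hF, h1, h2, h3, mt SimpleGraph.Adj.symm h1, mt SimpleGraph.Adj.symm h2,
          mt SimpleGraph.Adj.symm h3]
  exact h ⟨⟨⟨F, hinj⟩, @fun a b => hadj a b⟩⟩

omit [Fintype V] [DecidableEq V] in
lemma cycleGraph_isContained {f : ℕ → V} (hm : 3 ≤ m) (hf : IsCyc G m f) :
    (SimpleGraph.cycleGraph m).IsContained G := by
  have key : ∀ a b : Fin m, (a - b).val = 1 → G.Adj (f b) (f a) := fun a b h => by
    have e : (b.val + 1) % m = a.val := by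
      have h' := congrArg (fun t : ℕ => (t + b.val) % m) h
      simp only [Fin.val_sub] at h'
      rw [Nat.mod_add_mod, show m - b.val + a.val + b.val = a.val + m by omega, Nat.add_mod_right,
        Nat.mod_eq_of_lt a.2] at h'
      rw [Nat.add_comm]
      exact h'.symm
    have := hf.adj b.val
    rwa [← periodic_mod hf.periodic (b.val + 1), e] at this
  exact ⟨⟨⟨fun i => f i, fun {a b} h => by
    rw [SimpleGraph.cycleGraph_adj'] at h
    rcases h with h | h
    · exact (key a b h).symm
    · exact key b a h⟩, fun a b e => Fin.ext (hf.inj _ a.2 _ b.2 e)⟩⟩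

end Vale.Agent.P048
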